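import Vale.Agent.P221.T.H769.DC
import Vale.Agent.P221.H509.DC

/-!
# P221, part T, (B0): comparison of `Uniq` with `H509.DC`
-/

namespace Vale.Agent.P221.T.H769

open Vale.Agent.P221.H509

variable {p : ℕ} {G : Type*} [AddCommGroup G]

theorem uniq_iff_dc : Uniq p G ↔ DC p G := by
  unfold Uniq DC
  refine forall_congr' fun g => ?_
  have h : ∀ h : ℕ → G, (∀ i, h i - p • h (i + 1) = g i) ↔ ∀ i, h i = g i + p • h (i + 1) :=
    fun h => forall_congr' fun i => sub_eq_iff_eq_add
  simp only [h]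

theorem Uniq.dc (h : Uniq p G) : DC p G := uniq_iff_dc.1 h

theorem uniq_of_dc (h : DC p G) : Uniq p G := uniq_iff_dc.2 h

/-- every `ℤ_p`-module structure is the one of `H509.DC` -/
theorem smul_eq_sm [Fact p.Prime] [Module ℤ_[p] G] (h : DC p G) (c : ℤ_[p]) (g : G) :
    c • g = h.sm c g := by
  letI m := h.module
  exact smul_unique (uniq_of_dc h) _ m c g

end Vale.Agent.P221.T.H769
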