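import Vale.Agent.P221.T.Filt

/-!
# P221, part T: (F1) and (F2), successive approximation in filtered systems
-/

open MvPolynomial

namespace Vale.Agent.P221.T.H769

theorem dd_nonneg {p : ℕ} (hp : 0 < p) (n l : ℕ) : 0 ≤ dd p n l := by
  have h : (1 : ℤ) ≤ (p : ℤ) ^ (n + 1 + l) := one_le_pow₀ (by exact_mod_cast hp)
  unfold dd sV
  linarith

section

variable {p n : ℕ} {S : Src p n} {Y : Sys S} {N : Type} [AddCommGroup N] [Module (RR p n) N]
  {gr : ℤ → ℤ → AddSubgroup N} {d : ℤ} (T : FS Y gr d)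

include T

theorem θ_zero {k : ℤ} (hk : d ≤ k) (s : ℤ) : T.θ s k 0 = 0 := by
  have h := T.θ_add (s := s) hk (T.F s k).zero_mem (T.F s k).zero_mem
  rw [add_zero] at h
  exact left_eq_add.1 h

theorem θ_neg {k : ℤ} (hk : d ≤ k) {s : ℤ} {a : Y.A k} (ha : a ∈ T.F s k) :
    T.θ s k (-a) = -T.θ s k a := by
  have h := T.θ_add (s := s) hk ha ((T.F s k).neg_mem ha)
  rw [add_neg_cancel, θ_zero T hk] at h
  exact (neg_eq_of_add_eq_zero_right h.symm).symm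

theorem θ_sub {k : ℤ} (hk : d ≤ k) {s : ℤ} {a b : Y.A k} (ha : a ∈ T.F s k) (hb : b ∈ T.F s k) :
    T.θ s k (a - b) = T.θ s k a - T.θ s k b := by
  rw [sub_eq_add_neg, T.θ_add hk ha ((T.F s k).neg_mem hb), θ_neg T hk hb, sub_eq_add_neg]

theorem θ_sum {k : ℤ} (hk : d ≤ k) {s : ℤ} {ι : Type} (u : Finset ι) (a : ι → Y.A k)
    (ha : ∀ i ∈ u, a i ∈ T.F s k) :
    T.θ s k (∑ i ∈ u, a i) = ∑ i ∈ u, T.θ s k (a i) := by
  classical
  induction u using Finset.induction_on with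
  | empty => simpa using θ_zero T hk s
  | insert i u hi ih =>
    rw [Finset.sum_insert hi, Finset.sum_insert hi,
      T.θ_add hk (ha i (Finset.mem_insert_self i u))
        (AddSubgroup.sum_mem _ fun j hj => ha j (Finset.mem_insert_of_mem hj)),
      ih fun j hj => ha j (Finset.mem_insert_of_mem hj)]

/-- an element of all the `F (s + m)` vanishes -/
theorem eq_zero_of_nat {k : ℤ} (hk : d ≤ k) (s : ℤ) {a : Y.A k} (h : ∀ m : ℕ, a ∈ T.F (s + m) k) :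
    a = 0 := by
  refine T.sep hk a fun s' => ?_
  refine T.mono (s' := s + (s' - s).toNat) ?_ (h _)
  have := Int.self_le_toNat (s' - s)
  linarith

/-- a sequence of successive corrections converges -/
theorem exists_limit {k : ℤ} (hk : d ≤ k) (s : ℤ) (P : ℕ → Y.A k → Prop) (h0 : P 0 0)
    (hs : ∀ (m : ℕ) (a : Y.A k), a ∈ T.F s k → P m a → ∃ c ∈ T.F (s + m) k, P (m + 1) (a + c)) :
    ∃ b ∈ T.F s k, ∀ m : ℕ, ∃ a ∈ T.F s k, P m a ∧ b - a ∈ T.F (s + m) k := by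
  classical
  have key : ∀ m : ℕ, ∀ x : {a : Y.A k // a ∈ T.F s k ∧ P m a},
      ∃ y : {a : Y.A k // a ∈ T.F s k ∧ P (m + 1) a}, y.1 - x.1 ∈ T.F (s + m) k := by
    rintro m ⟨a, ha, hP⟩
    obtain ⟨c, hc, hP'⟩ := hs m a ha hP
    refine ⟨⟨a + c, (T.F s k).add_mem ha (T.mono (by linarith [Int.natCast_nonneg m]) hc), hP'⟩, ?_⟩
    simpa using hc
  choose g hg using key
  let Φ : ∀ m : ℕ, {a : Y.A k // a ∈ T.F s k ∧ P m a} := fun m =>
    Nat.rec ⟨0, (T.F s k).zero_mem, h0⟩ (fun m x => g m x) m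
  have hΦ : ∀ m, Φ (m + 1) = g m (Φ m) := fun m => rfl
  have hΦ0 : (Φ 0).1 = 0 := rfl
  obtain ⟨b, hb⟩ := T.cpl hk s (fun m => (Φ (m + 1)).1 - (Φ m).1) fun m => by
    rw [hΦ]
    exact hg m (Φ m)
  have hsum : ∀ m : ℕ, ∑ i ∈ Finset.range m, ((Φ (i + 1)).1 - (Φ i).1) = (Φ m).1 := fun m => by
    rw [Finset.sum_range_sub (fun i => (Φ i).1), hΦ0, sub_zero]
  refine ⟨b, ?_, fun m => ⟨(Φ m).1, (Φ m).2.1, (Φ m).2.2, ?_⟩⟩
  · have := hb 0
    simpa using this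
  · have := hb m
    rwa [hsum] at this

end

section

variable {p n : ℕ}

/-- (F1) -/
theorem specF1 (hp : 0 < p) : SpecF1 p n := by
  intro S Y N _ _ gr d T J hV k s hk ψ hψ hc
  have hdd : ∀ l, d ≤ k + dd p n l := fun l => by linarith [dd_nonneg hp n l]
  -- one step
  have step : ∀ (m : ℕ) (Φ : Y.A k), (∀ l ∈ J, ψ l - Y.act rfl Φ (S.x l) ∈ T.F (s + 1 + m) _) →
      ∃ c ∈ T.F (s + m) k, ∀ l ∈ J, ψ l - Y.act rfl (Φ + c) (S.x l) ∈ T.F (s + 1 + (m + 1 : ℕ)) _ := by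
    intro m Φ hΦ
    set χ : ∀ l, Y.A (k + dd p n l) := fun l => ψ l - Y.act rfl Φ (S.x l) with hχ
    have hχm : ∀ l ∈ J, χ l ∈ T.F (s + m + 1) _ := fun l hl => by
      have := hΦ l hl
      rwa [show s + 1 + (m : ℤ) = s + m + 1 by ring] at this
    have hcc : ∀ i ∈ J, ∀ l ∈ J, ∀ (k' : ℤ) (h : k + dd p n l + dd p n i = k')
        (h' : k + dd p n i + dd p n l = k'), Y.act h (χ l) (S.x i) = Y.act h' (χ i) (S.x l) := by
      intro i hi l hl k' h h'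
      simp only [hχ, map_sub, AddMonoidHom.sub_apply]
      rw [hc i hi l hl k' h h', Y.comm l i rfl h rfl h']
    obtain ⟨φ₀, hφ₀, hφ₁⟩ := hV k hk (s + m) (fun l => T.θ (s + m + 1) _ (χ l))
      (fun l hl => T.θ_mem (hdd l) (hχm l hl)) (fun i hi l hl => by
        have e1 := T.θ_x i (k' := k + dd p n l + dd p n i) rfl (hdd l) (hχm l hl)
        have e2 := T.θ_x l (k' := k + dd p n l + dd p n i) (by ring) (hdd i) (hχm i hi)
        rw [← e1, ← e2, hcc i hi l hl _ rfl (by ring)])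
    obtain ⟨c, hcF, hcθ⟩ := T.θ_surj hk hφ₀
    refine ⟨c, hcF, fun l hl => ?_⟩
    have h1 : ψ l - Y.act rfl (Φ + c) (S.x l) = χ l - Y.act rfl c (S.x l) := by
      simp only [hχ, map_add, AddMonoidHom.add_apply]
      abel
    have h2 : Y.act rfl c (S.x l) ∈ T.F (s + m + 1) (k + dd p n l) := T.x_mem l rfl hk hcF
    rw [h1, show s + 1 + ((m + 1 : ℕ) : ℤ) = s + m + 1 + 1 by push_cast; ring]
    rw [← T.θ_ker (hdd l) ((T.F _ _).sub_mem (hχm l hl) h2), θ_sub T (hdd l) (hχm l hl) h2,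
      T.θ_x l rfl hk hcF, hcθ, hφ₁ l hl, sub_self]
  obtain ⟨b, hb, hlim⟩ := exists_limit T hk s
    (fun m Φ => ∀ l ∈ J, ψ l - Y.act rfl Φ (S.x l) ∈ T.F (s + 1 + m) _)
    (fun l hl => by simpa using hψ l hl) (fun m Φ _ h => step m Φ h)
  refine ⟨b, hb, fun l hl => ?_⟩
  have : ψ l - Y.act rfl b (S.x l) = 0 := by
    refine eq_zero_of_nat T (hdd l) (s + 1) fun m => ?_
    obtain ⟨a, _, haP, hab⟩ := hlim m
    have h1 := haP l hl
    have h2 : Y.act rfl (b - a) (S.x l) ∈ T.F (s + m + 1) (k + dd p n l) := T.x_mem l rfl hk hab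
    rw [show s + (m : ℤ) + 1 = s + 1 + m by ring] at h2
    have h3 : ψ l - Y.act rfl b (S.x l) =
        (ψ l - Y.act rfl a (S.x l)) - Y.act rfl (b - a) (S.x l) := by
      simp only [map_sub, AddMonoidHom.sub_apply]
      abel
    rw [h3]
    exact (T.F _ _).sub_mem h1 h2
  exact (sub_eq_zero.1 this).symm


theorem inF_del {N : Type} [AddCommGroup N] {gr : ℤ → ℤ → AddSubgroup N}
    {k s : ℤ} {y : N} (hy : y ∈ gr k s) : InF p gr k s (del y) := by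
  intro E
  by_cases hE : E = 0
  · subst hE
    simpa [dT] using hy
  · rw [del, Pi.single_eq_of_ne hE]
    exact (gr _ _).zero_mem

/-- (F2) -/
theorem specF2 (hp : 0 < p) : SpecF2 p n := by
  intro S Y N _ _ gr d T hV hx hθ k s hk y hy
  have hdd : ∀ l, d ≤ k + dd p n l := fun l => by linarith [dd_nonneg hp n l]
  obtain ⟨a₀, ha₀, hθ₀⟩ := T.θ_surj hk (inF_del hy)
  have h1 : ∀ l, Y.act rfl a₀ (S.x l) ∈ T.F (s + 1 + 1) (k + dd p n l) := fun l => by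
    rw [← T.θ_ker (hdd l) (T.act_mem rfl hk (hdd l) ha₀ hθ₀ (hx l)),
      T.θ_act rfl hk (hdd l) ha₀ hθ₀ (hx l), hθ l]
    funext E
    simp
  obtain ⟨φ, hφ, hφ'⟩ := specF1 hp S Y N gr d T Set.univ hV k (s + 1) hk
    (fun l => Y.act rfl a₀ (S.x l)) (fun l _ => h1 l)
    (fun i _ l _ k' h h' => Y.comm l i rfl h rfl h' a₀)
  have hφs : φ ∈ T.F s k := T.mono (by linarith) hφ
  refine ⟨a₀ - φ, (T.F s k).sub_mem ha₀ hφs, ?_, fun l => ?_⟩
  · rw [θ_sub T hk ha₀ hφs, hθ₀, (T.θ_ker hk hφs).2 hφ, sub_zero]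
  · rw [map_sub, AddMonoidHom.sub_apply, hφ' l (Set.mem_univ l), sub_self]

end

end Vale.Agent.P221.T.H769
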