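import Mathlib.NumberTheory.Padics.RingHoms
import Mathlib.Analysis.SpecificLimits.Normed
import Mathlib.Topology.Algebra.InfiniteSum.Ring

/-!
# P221, part T, (B0): `p`-complete abelian groups are `ℤ_p`-modules

`Uniq p G` : for every sequence `g` in `G` there is exactly one sequence `h` with
`h i - p h (i+1) = g i`.

* `exists_hom`, `hom_ext_one` : for `g : G` there is exactly one additive map `φ : ℤ_p ⟶ G`, `φ 1 = g`;
* `zpMod` : the `ℤ_p`-module structure; `map_smul_of_uniq` : additive maps are `ℤ_p`-linear;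
* `span_of_mod` : generators modulo `p` are generators; `basis_of_mod` : bases modulo `p` are bases
  of torsion free groups;
* `Uniq.pi`, `Uniq.ker`, `Uniq.retract`, `Uniq.of_equiv`, `uniq_padic`.
-/

namespace Vale.Agent.P221.T.H769

/-- the group is derived `p`-complete -/
def Uniq (p : ℕ) (G : Type*) [AddCommGroup G] : Prop :=
  ∀ g : ℕ → G, ∃! h : ℕ → G, ∀ i, h i - p • h (i + 1) = g i

section basic

variable {p : ℕ} {G H : Type*} [AddCommGroup G] [AddCommGroup H]

theorem Uniq.exists (h : Uniq p G) (g : ℕ → G) : ∃ x : ℕ → G, ∀ i, x i - p • x (i + 1) = g i :=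
  (h g).exists

theorem Uniq.unique (h : Uniq p G) {x y : ℕ → G} (hxy : ∀ i, x i - p • x (i + 1) = y i - p • y (i + 1)) :
    x = y :=
  (h fun i => y i - p • y (i + 1)).unique hxy fun _ => rfl

/-- there are no compatible `p`-divisible families -/
theorem Uniq.eq_zero (h : Uniq p G) {x : ℕ → G} (hx : ∀ i, x i = p • x (i + 1)) (i : ℕ) : x i = 0 := by
  have h1 : x = fun _ => 0 := h.unique fun i => by rw [← hx i]; simp
  rw [h1]

theorem Uniq.of_equiv (h : Uniq p G) (e : G ≃+ H) : Uniq p H := by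
  intro g
  obtain ⟨x, hx, hu⟩ := h fun i => e.symm (g i)
  refine ⟨fun i => e (x i), fun i => ?_, fun y hy => ?_⟩
  · dsimp only
    rw [← map_nsmul, ← map_sub, hx i, e.apply_symm_apply]
  · funext i
    rw [← hu (fun i => e.symm (y i)) fun i => by
      dsimp only
      rw [← map_nsmul, ← map_sub, hy i], e.apply_symm_apply]

theorem Uniq.pi {ι : Type*} {G : ι → Type*} [∀ a, AddCommGroup (G a)] (h : ∀ a, Uniq p (G a)) :
    Uniq p (∀ a, G a) := by
  intro g
  choose x hx using fun a => (h a).exists fun i => g i a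
  refine ⟨fun i a => x a i, fun i => funext fun a => hx a i, fun y hy => ?_⟩
  funext i a
  have h1 : (fun i => y i a) = x a := (h a).unique fun i => by
    rw [hx a i, ← hy i]
    rfl
  exact congrFun h1 i

/-- direct summands -/
theorem Uniq.retract (h : Uniq p G) (i : H →+ G) (r : G →+ H) (hir : ∀ x, r (i x) = x) :
    Uniq p H := by
  intro g
  obtain ⟨x, hx⟩ := h.exists fun n => i (g n)
  refine ⟨fun n => r (x n), fun n => ?_, fun y hy => ?_⟩
  · dsimp only
    rw [← map_nsmul, ← map_sub, hx n, hir]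
  · funext n
    have h1 : (fun n => i (y n)) = x := h.unique fun n => by
      rw [hx n, ← hy n, map_sub, map_nsmul]
    rw [← hir (y n), ← congrFun h1 n]

/-- kernels -/
theorem Uniq.ker (h : Uniq p G) (hH : Uniq p H) (f : G →+ H) (K : AddSubgroup G)
    (hK : ∀ x, x ∈ K ↔ f x = 0) : Uniq p K := by
  intro g
  obtain ⟨x, hx⟩ := h.exists fun n => (g n : G)
  have hfx : ∀ n, f (x n) = 0 := hH.eq_zero (x := fun n => f (x n)) fun n => by
    have h1 := congrArg f (hx n)
    rw [map_sub, map_nsmul, (hK _).1 (g n).2, sub_eq_zero] at h1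
    exact h1
  refine ⟨fun n => ⟨x n, (hK _).2 (hfx n)⟩, fun n => Subtype.ext (hx n), fun y hy => ?_⟩
  funext n
  apply Subtype.ext
  have h1 : (fun n => (y n : G)) = x := h.unique fun n => by
    rw [hx n, ← hy n]
    rfl
  exact congrFun h1 n

/-- torsion free quotient of a sequence: extensions `K → G → H` -/
theorem Uniq.ext {K : Type*} [AddCommGroup K] (hK : Uniq p K) (hH : Uniq p H) (i : K →+ G)
    (f : G →+ H) (hi : Function.Injective i) (hf : Function.Surjective f)
    (hex : ∀ x, f x = 0 ↔ ∃ y, i y = x) : Uniq p G := by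
  intro g
  obtain ⟨y, hy⟩ := hH.exists fun n => f (g n)
  choose x hx using fun n => hf (y n)
  have h1 : ∀ n, ∃ k, i k = g n - (x n - p • x (n + 1)) := fun n => by
    rw [← hex, map_sub, map_sub, map_nsmul, hx, hx, hy, sub_self]
  choose k hk using h1
  obtain ⟨z, hz⟩ := hK.exists k
  refine ⟨fun n => x n + i (z n), fun n => ?_, fun w hw => ?_⟩
  · dsimp only
    have h2 := congrArg i (hz n)
    rw [map_sub, map_nsmul, hk] at h2
    rw [smul_add, add_sub_add_comm, h2]
    abel
  · have h2 : ∀ n, f (w n - (x n + i (z n))) = 0 := by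
      refine hH.eq_zero (x := fun n => f (w n - (x n + i (z n)))) fun n => ?_
      rw [← map_nsmul, ← sub_eq_zero, ← map_sub]
      have h3 : w n - (x n + i (z n)) - p • (w (n + 1) - (x (n + 1) + i (z (n + 1)))) =
          (w n - p • w (n + 1)) - (g n - i (k n) + i (z n - p • z (n + 1))) := by
        rw [hk, map_sub, map_nsmul, smul_sub, smul_add]
        abel
      rw [h3, hw n, hz n]
      simp
    choose t ht using fun n => (hex _).1 (h2 n)
    have h4 : ∀ n, t n = 0 := hK.eq_zero fun n => by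
      apply hi
      rw [map_nsmul, ht, ht, ← sub_eq_zero]
      have h3 : w n - (x n + i (z n)) - p • (w (n + 1) - (x (n + 1) + i (z (n + 1)))) =
          (w n - p • w (n + 1)) - (g n - i (k n) + i (z n - p • z (n + 1))) := by
        rw [hk, map_sub, map_nsmul, smul_sub, smul_add]
        abel
      rw [h3, hw n, hz n]
      simp
    funext n
    have h5 := ht n
    rw [h4, map_zero] at h5
    exact sub_eq_zero.1 h5.symm

end basic

section padic

variable {p : ℕ} [hp : Fact p.Prime]

theorem uniq_padic : Uniq p ℤ_[p] := by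
  have hp1 : ‖(p : ℤ_[p])‖ < 1 := by
    rw [PadicInt.norm_p]
    exact inv_lt_one_of_one_lt₀ (by exact_mod_cast hp.1.one_lt)
  have hs : ∀ a : ℕ → ℤ_[p], Summable fun j => (p : ℤ_[p]) ^ j * a j := fun a => by
    refine Summable.of_norm_bounded (summable_geometric_of_lt_one (norm_nonneg (p : ℤ_[p])) hp1)
      fun j => ?_
    rw [norm_mul, norm_pow]
    exact mul_le_of_le_one_right (by positivity) (PadicInt.norm_le_one _)
  intro g
  refine ⟨fun i => ∑' j, (p : ℤ_[p]) ^ j * g (i + j), fun i => ?_, fun y hy => ?_⟩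
  · have h1 := (hs fun j => g (i + j)).tsum_eq_zero_add
    have h2 : (fun j => (p : ℤ_[p]) ^ (j + 1) * g (i + (j + 1))) =
        fun j => (p : ℤ_[p]) * ((p : ℤ_[p]) ^ j * g (i + 1 + j)) := by
      funext j
      rw [show i + (j + 1) = i + 1 + j by ring]
      ring
    rw [h2, (hs fun j => g (i + 1 + j)).tsum_mul_left] at h1
    dsimp only
    rw [nsmul_eq_mul, h1]
    simp
  · funext i
    have h1 : ∀ (i m : ℕ), y i = ∑ j ∈ Finset.range m, (p : ℤ_[p]) ^ j * g (i + j) +
        (p : ℤ_[p]) ^ m * y (i + m) := by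
      intro i m
      induction m with
      | zero => simp
      | succ m ih =>
        rw [ih, Finset.sum_range_succ]
        have h2 := hy (i + m)
        rw [nsmul_eq_mul, sub_eq_iff_eq_add] at h2
        rw [h2, show i + m + 1 = i + (m + 1) by ring]
        ring
    have h2 : Filter.Tendsto (fun m => (p : ℤ_[p]) ^ m * y (i + m)) Filter.atTop (nhds 0) :=
      (hs fun m => y (i + m)).tendsto_atTop_zero
    have h3 := (hs fun j => g (i + j)).hasSum.tendsto_sum_nat
    have h4 := h3.add h2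
    rw [add_zero] at h4
    refine tendsto_nhds_unique ?_ h4
    refine Filter.Tendsto.congr (fun m => h1 i m) tendsto_const_nhds

/-- tails of a `p`-adic expansion -/
theorem exists_tails (c : ℤ_[p]) : ∃ (x : ℕ → ℤ_[p]) (a : ℕ → ℤ), x 0 = c ∧
    ∀ i, x i - p • x (i + 1) = (a i : ℤ_[p]) := by
  have h1 : ∀ c : ℤ_[p], ∃ (a : ℤ) (d : ℤ_[p]), c - p • d = (a : ℤ_[p]) := fun c => by
    obtain ⟨d, hd⟩ : (p : ℤ_[p]) ∣ c - (c.appr 1 : ℤ_[p]) := by
      have := PadicInt.appr_spec 1 c
      rw [pow_one] at this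
      exact Ideal.mem_span_singleton.1 this
    refine ⟨(c.appr 1 : ℤ), d, ?_⟩
    rw [nsmul_eq_mul, ← hd]
    push_cast
    ring
  choose a d had using h1
  refine ⟨fun n => Nat.rec c (fun _ x => d x) n,
    fun n => a (Nat.rec c (fun _ x => d x) n : ℤ_[p]), rfl, fun i => had _⟩

theorem exists_int_of_mul {b : ℤ} {c : ℤ_[p]} (h : (b : ℤ_[p]) = p • c) :
    ∃ b' : ℤ, (b' : ℤ_[p]) = c ∧ b = p • b' := by
  have h1 : ((p : ℤ) ^ 1) ∣ b := by
    rw [← PadicInt.pow_p_dvd_int_iff]
    exact ⟨c, by rw [h, nsmul_eq_mul, pow_one]⟩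
  rw [pow_one] at h1
  obtain ⟨b', rfl⟩ := h1
  refine ⟨b', ?_, by simp⟩
  have hp0 : (p : ℤ_[p]) ≠ 0 := by exact_mod_cast hp.1.ne_zero
  apply mul_left_cancel₀ hp0
  rw [nsmul_eq_mul] at h
  push_cast at h
  exact h

variable {G H : Type*} [AddCommGroup G] [AddCommGroup H]

theorem hom_ext_one (hG : Uniq p G) {φ ψ : ℤ_[p] →+ G} (h : φ 1 = ψ 1) : φ = ψ := by
  ext c
  obtain ⟨x, a, hx, ha⟩ := exists_tails c
  have h1 : ∀ (φ : ℤ_[p] →+ G) (i : ℕ), φ (x i) - p • φ (x (i + 1)) = a i • φ 1 := fun φ i => by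
    rw [← map_nsmul, ← map_sub, ha, ← map_zsmul]
    congr 1
    simp
  have h2 : (fun i => φ (x i)) = fun i => ψ (x i) := hG.unique fun i => by
    rw [h1, h1, h]
  have h3 := congrFun h2 0
  rwa [hx] at h3

/-- the graph of the map `c ↦ c • g` -/
private def Rel (p : ℕ) [Fact p.Prime] (g : G) (c : ℤ_[p]) (y : G) : Prop :=
  ∃ (x : ℕ → ℤ_[p]) (a : ℕ → ℤ) (h : ℕ → G), x 0 = c ∧ h 0 = y ∧
    (∀ i, x i - p • x (i + 1) = (a i : ℤ_[p])) ∧ ∀ i, h i - p • h (i + 1) = a i • g

private theorem Rel.eq_zero (hG : Uniq p G) {g y : G} (h : Rel p g 0 y) : y = 0 := by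
  obtain ⟨x, a, h, hx, rfl, ha, hh⟩ := h
  have h1 : ∀ i, ∃ b : ℤ, (b : ℤ_[p]) = x i := by
    intro i
    induction i with
    | zero => exact ⟨0, by rw [hx]; simp⟩
    | succ i ih =>
      obtain ⟨b, hb⟩ := ih
      have h2 : ((b - a i : ℤ) : ℤ_[p]) = p • x (i + 1) := by
        push_cast
        rw [hb, ← ha i]
        ring
      obtain ⟨b', hb', _⟩ := exists_int_of_mul h2
      exact ⟨b', hb'⟩
  choose b hb using h1
  have h2 : ∀ i, a i = b i - p • b (i + 1) := fun i => by
    have := ha i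
    rw [← hb, ← hb] at this
    have h3 : ((b i - p • b (i + 1) : ℤ) : ℤ_[p]) = (a i : ℤ_[p]) := by
      rw [← this]
      push_cast
      simp
    exact_mod_cast h3.symm
  have h3 : h = fun i => b i • g := hG.unique fun i => by
    rw [hh, h2, sub_smul, smul_assoc]
  have h4 : b 0 = 0 := by
    have := hb 0
    rw [hx] at this
    exact_mod_cast this
  rw [h3]
  simp [h4]

private theorem Rel.exists (hG : Uniq p G) (g : G) (c : ℤ_[p]) : ∃ y, Rel p g c y := by
  obtain ⟨x, a, hx, ha⟩ := exists_tails c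
  obtain ⟨h, hh⟩ := hG.exists fun i => a i • g
  exact ⟨h 0, x, a, h, hx, rfl, ha, hh⟩

private theorem Rel.sub {g : G} {c c' : ℤ_[p]} {y y' : G} (h : Rel p g c y) (h' : Rel p g c' y') :
    Rel p g (c - c') (y - y') := by
  obtain ⟨x, a, h, rfl, rfl, ha, hh⟩ := h
  obtain ⟨x', a', h', rfl, rfl, ha', hh'⟩ := h'
  refine ⟨fun i => x i - x' i, fun i => a i - a' i, fun i => h i - h' i, rfl, rfl,
    fun i => ?_, fun i => ?_⟩
  · push_cast
    rw [← ha, ← ha', smul_sub]
    abel
  · dsimp only
    rw [sub_smul, ← hh, ← hh', smul_sub]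
    abel

private theorem Rel.unique (hG : Uniq p G) {g : G} {c : ℤ_[p]} {y y' : G} (h : Rel p g c y)
    (h' : Rel p g c y') : y = y' := by
  have h1 := h.sub h'
  rw [sub_self] at h1
  exact sub_eq_zero.1 (h1.eq_zero hG)

private theorem Rel.one (g : G) : Rel p g 1 g := by
  refine ⟨fun i => if i = 0 then 1 else 0, fun i => if i = 0 then 1 else 0,
    fun i => if i = 0 then g else 0, by simp, by simp, fun i => ?_, fun i => ?_⟩
  · by_cases hi : i = 0 <;> simp [hi]
  · by_cases hi : i = 0 <;> simp [hi]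

/-- **(a)** existence of the map `c ↦ c • g` -/
theorem exists_hom (hG : Uniq p G) (g : G) : ∃ φ : ℤ_[p] →+ G, φ 1 = g := by
  choose f hf using Rel.exists hG g
  have h0 : ∀ c d, f (c - d) = f c - f d := fun c d => (hf (c - d)).unique hG ((hf c).sub (hf d))
  have h1 : f 0 = 0 := by
    have := h0 0 0
    simpa using this
  have h2 : ∀ c d, f (c + d) = f c + f d := fun c d => by
    have h3 := h0 (c + d) d
    rw [add_sub_cancel_right] at h3
    rw [h3]
    abel
  exact ⟨{ toFun := f, map_zero' := h1, map_add' := h2 }, (hf 1).unique hG (Rel.one g)⟩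

/-- the map `c ↦ c • g` -/
noncomputable def zpHom (hG : Uniq p G) (g : G) : ℤ_[p] →+ G := (exists_hom hG g).choose

theorem zpHom_one (hG : Uniq p G) (g : G) : zpHom hG g 1 = g := (exists_hom hG g).choose_spec

/-- **(a)** the `ℤ_p`-module structure of a `p`-complete group -/
@[implicit_reducible]
noncomputable def zpMod (hG : Uniq p G) : Module ℤ_[p] G where
  smul c g := zpHom hG g c
  one_smul g := zpHom_one hG g
  mul_smul c d g := by
    have h : (zpHom hG g).comp (AddMonoidHom.mulRight d) = zpHom hG (zpHom hG g d) :=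
      hom_ext_one hG (by simp [zpHom_one])
    exact DFunLike.congr_fun h c
  smul_zero c := by
    have h : zpHom hG (0 : G) = (0 : ℤ_[p] →+ G) := hom_ext_one hG (by simp [zpHom_one])
    exact DFunLike.congr_fun h c
  smul_add c g g' := by
    have h : zpHom hG (g + g') = zpHom hG g + zpHom hG g' := hom_ext_one hG (by simp [zpHom_one])
    exact DFunLike.congr_fun h c
  add_smul c d g := map_add _ c d
  zero_smul g := map_zero _

/-- additive maps to a `p`-complete group are `ℤ_p`-linear -/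
theorem map_smul_of_uniq [Module ℤ_[p] G] [Module ℤ_[p] H] (hH : Uniq p H) (f : G →+ H)
    (c : ℤ_[p]) (g : G) : f (c • g) = c • f g := by
  have h : f.comp (AddMonoidHom.flip (smulAddHom ℤ_[p] G) g) =
      AddMonoidHom.flip (smulAddHom ℤ_[p] H) (f g) := hom_ext_one hH (by simp)
  have := DFunLike.congr_fun h c
  simpa using this

/-- additive maps to a `p`-complete group as `ℤ_p`-linear maps -/
def linOfUniq [Module ℤ_[p] G] [Module ℤ_[p] H] (hH : Uniq p H) (f : G →+ H) : G →ₗ[ℤ_[p]] H where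
  toFun := f
  map_add' := map_add f
  map_smul' := map_smul_of_uniq hH f

@[simp] theorem linOfUniq_apply [Module ℤ_[p] G] [Module ℤ_[p] H] (hH : Uniq p H) (f : G →+ H)
    (x : G) : linOfUniq hH f x = f x := rfl

/-- two `ℤ_p`-module structures on a `p`-complete group agree -/
theorem smul_unique (hG : Uniq p G) (m m' : Module ℤ_[p] G) (c : ℤ_[p]) (g : G) :
    m.toSMul.smul c g = m'.toSMul.smul c g := by
  have h : (@smulAddHom ℤ_[p] G _ _ m).flip g = (@smulAddHom ℤ_[p] G _ _ m').flip g :=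
    hom_ext_one hG ((m.one_smul g).trans (m'.one_smul g).symm)
  exact DFunLike.congr_fun h c

/-- **(b)** generation modulo `p` implies generation -/
theorem exists_sum_of_mod [Module ℤ_[p] G] (hG : Uniq p G) {ι : Type*} [Fintype ι] (b : ι → G)
    (h : ∀ z : G, ∃ (a : ι → ℤ) (z' : G), z = ∑ i, a i • b i + p • z') (z : G) :
    ∃ c : ι → ℤ_[p], z = ∑ i, c i • b i := by
  choose a d had using h
  let x : ℕ → G := fun n => Nat.rec z (fun _ y => d y) n
  have hx : ∀ n, x n - p • x (n + 1) = ∑ i, a (x n) i • b i := fun n => by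
    have h1 := had (x n)
    have h2 : x (n + 1) = d (x n) := rfl
    rw [h2]
    exact sub_eq_iff_eq_add.2 h1
  choose c hc using fun i => (uniq_padic (p := p)).exists fun n => ((a (x n) i : ℤ) : ℤ_[p])
  have h2 : x = fun n => ∑ i, c i n • b i := hG.unique fun n => by
    rw [hx, Finset.smul_sum, ← Finset.sum_sub_distrib]
    refine Finset.sum_congr rfl fun i _ => ?_
    rw [← Int.cast_smul_eq_zsmul ℤ_[p], ← hc i n, sub_smul, smul_assoc]
  exact ⟨fun i => c i 0, congrFun h2 0⟩

/-- **(b)** with a finite set of generators -/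
theorem span_of_mod [Module ℤ_[p] G] (hG : Uniq p G) (Y : Set G) (hY : Y.Finite)
    (h : ∀ z : G, ∃ z' : G, z - p • z' ∈ AddSubgroup.closure Y) :
    Submodule.span ℤ_[p] Y = ⊤ := by
  classical
  have := hY.fintype
  rw [eq_top_iff]
  intro z _
  obtain ⟨c, hc⟩ := exists_sum_of_mod hG (fun y : Y => (y : G)) (fun z => by
    obtain ⟨z', hz'⟩ := h z
    rw [← Submodule.span_int_eq_addSubgroupClosure, Submodule.mem_toAddSubgroup,
      Submodule.mem_span_set'] at hz'
    obtain ⟨m, f, g, hfg⟩ := hz'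
    refine ⟨fun y => ∑ j ∈ Finset.univ.filter (fun j => g j = y), f j, z', ?_⟩
    rw [← sub_eq_iff_eq_add, ← hfg]
    simp_rw [Finset.sum_smul]
    rw [← Finset.sum_fiberwise (s := Finset.univ) (g := g) (f := fun j => f j • (g j : G))]
    refine Finset.sum_congr rfl fun y _ => Finset.sum_congr rfl fun j hj => ?_
    rw [(Finset.mem_filter.1 hj).2]) z
  rw [hc]
  exact Submodule.sum_mem _ fun y _ => Submodule.smul_mem _ _ (Submodule.subset_span y.2)

/-- **(e)** a basis modulo `p` of a torsion free `p`-complete group is a basis -/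
theorem existsUnique_sum_of_mod [Module ℤ_[p] G] (hG : Uniq p G)
    (htf : ∀ x : G, p • x = 0 → x = 0) {ι : Type*} [Fintype ι] (b : ι → G)
    (h : ∀ z : G, ∃ (a : ι → ℤ) (z' : G), z = ∑ i, a i • b i + p • z')
    (hind : ∀ (a : ι → ℤ) (z' : G), ∑ i, a i • b i = p • z' → ∀ i, (p : ℤ) ∣ a i) (z : G) :
    ∃! c : ι → ℤ_[p], z = ∑ i, c i • b i := by
  have key : ∀ c : ι → ℤ_[p], ∑ i, c i • b i = 0 → ∃ d : ι → ℤ_[p], c = p • d ∧
      ∑ i, d i • b i = 0 := by
    intro c hc
    choose x a hx ha using fun i => exists_tails (c i)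
    have h1 : ∀ i, c i = (a i 0 : ℤ_[p]) + p • x i 1 := fun i => by
      rw [← hx i, ← ha i 0]
      abel
    have h2 : ∑ i, a i 0 • b i = p • (-∑ i, x i 1 • b i) := by
      have h3 : ∑ i, c i • b i = ∑ i, a i 0 • b i + p • ∑ i, x i 1 • b i := by
        rw [Finset.smul_sum, ← Finset.sum_add_distrib]
        refine Finset.sum_congr rfl fun i _ => ?_
        rw [h1 i, add_smul, Int.cast_smul_eq_zsmul, smul_assoc]
      rw [hc] at h3
      rw [smul_neg, eq_neg_iff_add_eq_zero]
      exact h3.symm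
    choose e he using hind _ _ h2
    have h4 : c = p • fun i => (e i : ℤ_[p]) + x i 1 := by
      funext i
      rw [Pi.smul_apply, smul_add, h1 i, he i]
      simp
    refine ⟨_, h4, htf _ ?_⟩
    rw [Finset.smul_sum, ← hc]
    refine Finset.sum_congr rfl fun i _ => ?_
    rw [h4, Pi.smul_apply, smul_assoc]
  obtain ⟨c, hc⟩ := exists_sum_of_mod hG b h z
  refine ⟨c, hc, fun c' hc' => ?_⟩
  have h0 : ∑ i, (c' - c) i • b i = 0 := by
    simp only [Pi.sub_apply, sub_smul, Finset.sum_sub_distrib]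
    rw [← hc', ← hc, sub_self]
  choose! d hd hd0 using key
  have h5 : ∀ n : ℕ, ∑ i, (d^[n] (c' - c)) i • b i = 0 := by
    intro n
    induction n with
    | zero => exact h0
    | succ n ih =>
      rw [Function.iterate_succ_apply']
      exact hd0 _ ih
  have h6 : c' - c = 0 := (Uniq.pi (fun _ : ι => uniq_padic (p := p))).eq_zero
    (x := fun n => d^[n] (c' - c)) (fun n => by
      rw [Function.iterate_succ_apply']
      exact hd _ (h5 n)) 0
  exact sub_eq_zero.1 h6

end padic

end Vale.Agent.P221.T.H769
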